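import Mathlib
import Crest.Agent.N336.Defs

-- ▼ part N336/Area/Vert
section

/-!
# Row 336, area law geometry: abstract context and the vertex lemma (helper51)

`Ctx` packages a set function `φ` (later `φ X = I(X : Aᶜ)`) with the *step property* coming from
thin-buffer decoupling.  `Res` says that a four-valent vertex of a two-colouring can be resolved.
-/

set_option autoImplicit false

namespace Crest.Agent.N336.Area

/-- Half-open box of radius `ρ` around the lattice vertex `c`. -/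
def Box (c : ℤ × ℤ) (ρ : ℤ) (z : ℤ × ℤ) : Prop :=
  c.1 - ρ ≤ z.1 ∧ z.1 < c.1 + ρ ∧ c.2 - ρ ≤ z.2 ∧ z.2 < c.2 + ρ

/-- Sup-distance at most `d`. -/
def Near (d : ℤ) (z w : ℤ × ℤ) : Prop :=
  z.1 - w.1 ≤ d ∧ w.1 - z.1 ≤ d ∧ z.2 - w.2 ≤ d ∧ w.2 - z.2 ≤ d

instance (c : ℤ × ℤ) (ρ : ℤ) (z : ℤ × ℤ) : Decidable (Box c ρ z) := by
  unfold Box; infer_instance

instance (d : ℤ) (z w : ℤ × ℤ) : Decidable (Near d z w) := by
  unfold Near; infer_instance

/-- Checkerboard colouring around the vertex `c`. -/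
def chk (σ : Bool) (c z : ℤ × ℤ) : Bool :=
  xor σ (xor (decide (c.1 ≤ z.1)) (decide (c.2 ≤ z.2)))

/-- Abstract context: a set function with the step property. -/
structure Ctx (Λ : Type) [DecidableEq Λ] (g : ℕ) (C : ℝ) where
  pos : Λ → ℤ × ℤ
  inj : Function.Injective pos
  A : Finset Λ
  Γ : Finset (ℤ × ℤ)
  φ : Finset Λ → ℝ
  step : ∀ (X X' : Finset Λ) (c : ℤ × ℤ) (w b : ℕ), X ⊆ A → X' ⊆ A → b ≤ w →
    (2 * w - b + 8) - (2 * w - b + 8) / g ≤ b →
    (∀ x ∈ X', Box c (2 ^ w) (pos x)) →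
    (∀ x ∈ X', ∀ y ∈ X, ¬ Near (2 * 2 ^ b) (pos x) (pos y)) →
    (∀ x ∈ X', ∀ γ ∈ Γ, ¬ Near (2 * 2 ^ b) (pos x) γ) →
    φ (X ∪ X') ≤ φ X + C / 2 ^ w

variable {Λ : Type} [DecidableEq Λ] {g : ℕ} {C : ℝ}

/-- Total cost of a two-colour state. -/
def Ctx.Φ (K : Ctx Λ g C) (F : Bool → Finset Λ) : ℝ := K.φ (F true) + K.φ (F false)

/-- The vertex `c` can be resolved at radius `ρ` on the region `U` at the given cost. -/
def Res (K : Ctx Λ g C) (lam : ℝ) (U : Finset Λ) (c : ℤ × ℤ) (ρ : ℤ) (cost : ℝ) : Prop :=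
  U ⊆ K.A ∧ (∀ x ∈ K.A, Box c ρ (K.pos x) → x ∈ U) ∧ (∀ x ∈ U, Box c (2 * ρ) (K.pos x)) ∧
  ∀ (σ : Bool) (F : Bool → Finset Λ), (∀ b, F b ⊆ K.A) → (∀ b, Disjoint (F b) U) →
    (∀ b, ∀ x ∈ F b, Box c (4 * ρ) (K.pos x) → chk σ c (K.pos x) = b) →
    ∃ (F' : Bool → Finset Λ) (D : Finset Λ), (∀ b, F b ⊆ F' b) ∧ (∀ b, F' b ⊆ F b ∪ U) ∧
      U ⊆ F' true ∪ F' false ∪ D ∧ K.Φ F' + lam * D.card ≤ K.Φ F + cost

/-- Several separated vertices are resolved one after the other. -/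
theorem multi (K : Ctx Λ g C) {lam : ℝ} (hl : 0 ≤ lam) {ι : Type} [DecidableEq ι]
    (I : Finset ι) (U : ι → Finset Λ) (c : ι → ℤ × ℤ) (ρ : ι → ℤ) (cost : ι → ℝ) (σ : ι → Bool)
    (hρ : ∀ i ∈ I, 0 ≤ ρ i)
    (hR : ∀ i ∈ I, Res K lam (U i) (c i) (ρ i) (cost i))
    (hsep : ∀ i ∈ I, ∀ j ∈ I, i ≠ j → ∀ z, Box (c i) (2 * ρ i) z → ¬ Box (c j) (4 * ρ j) z)
    (F : Bool → Finset Λ) (hA : ∀ b, F b ⊆ K.A) (hD : ∀ i ∈ I, ∀ b, Disjoint (F b) (U i))
    (hc : ∀ i ∈ I, ∀ b, ∀ x ∈ F b, Box (c i) (4 * ρ i) (K.pos x) →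
      chk (σ i) (c i) (K.pos x) = b) :
    ∃ (F' : Bool → Finset Λ) (D : Finset Λ), (∀ b, F b ⊆ F' b) ∧
      (∀ b, F' b ⊆ F b ∪ I.biUnion U) ∧ I.biUnion U ⊆ F' true ∪ F' false ∪ D ∧
      K.Φ F' + lam * D.card ≤ K.Φ F + ∑ i ∈ I, cost i := by
  induction I using Finset.induction_on with
  | empty => exact ⟨F, ∅, fun _ => le_rfl, fun _ => by simp, by simp, by simp⟩
  | insert i I hi ih =>
    have hs : ∀ j ∈ I, j ∈ insert i I := fun j hj => Finset.mem_insert_of_mem hj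
    have hi' : i ∈ insert i I := Finset.mem_insert_self _ _
    obtain ⟨F1, D1, h1, h2, h3, h4⟩ := ih (fun j hj => hρ j (hs j hj))
      (fun j hj => hR j (hs j hj)) (fun j hj k hk => hsep j (hs j hj) k (hs k hk))
      (fun j hj => hD j (hs j hj)) (fun j hj => hc j (hs j hj))
    obtain ⟨hU, -, hU2, hres⟩ := hR i hi'
    have far : ∀ x ∈ I.biUnion U, ¬ Box (c i) (4 * ρ i) (K.pos x) := by
      intro x hx
      obtain ⟨j, hj, hxj⟩ := Finset.mem_biUnion.1 hx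
      exact hsep j (hs j hj) i hi' (fun h => hi (h ▸ hj)) _ ((hR j (hs j hj)).2.2.1 x hxj)
    obtain ⟨F2, D2, k1, k2, k3, k4⟩ := hres (σ i) F1
      (fun b x hx => by
        rcases Finset.mem_union.1 (h2 b hx) with h | h
        · exact hA b h
        · obtain ⟨j, hj, hxj⟩ := Finset.mem_biUnion.1 h
          exact (hR j (hs j hj)).1 hxj)
      (fun b => Finset.disjoint_left.2 fun x hx hxU => by
        rcases Finset.mem_union.1 (h2 b hx) with h | h
        · exact Finset.disjoint_left.1 (hD i hi' b) h hxU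
        · apply far x h
          have := hU2 x hxU
          have := hρ i hi'
          unfold Box at *; omega)
      (fun b x hx hb => by
        rcases Finset.mem_union.1 (h2 b hx) with h | h
        · exact hc i hi' b x h hb
        · exact absurd hb (far x h))
    refine ⟨F2, D1 ∪ D2, fun b => (h1 b).trans (k1 b), fun b x hx => ?_, fun x hx => ?_, ?_⟩
    · rw [Finset.biUnion_insert]
      rcases Finset.mem_union.1 (k2 b hx) with h | h
      · rcases Finset.mem_union.1 (h2 b h) with h | h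
        · exact Finset.mem_union_left _ h
        · exact Finset.mem_union_right _ (Finset.mem_union_right _ h)
      · exact Finset.mem_union_right _ (Finset.mem_union_left _ h)
    · rw [Finset.biUnion_insert] at hx
      rcases Finset.mem_union.1 hx with h | h
      · have := k3 h
        simp only [Finset.mem_union] at this ⊢
        tauto
      · have := h3 h
        have a1 := @k1 true x
        have a2 := @k1 false x
        simp only [Finset.mem_union] at this ⊢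
        tauto
    · rw [Finset.sum_insert hi]
      have : ((D1 ∪ D2).card : ℝ) ≤ D1.card + D2.card := by
        exact_mod_cast Finset.card_union_le D1 D2
      nlinarith [mul_le_mul_of_nonneg_left this hl]

/-- Sites in a box. -/
theorem card_box (K : Ctx Λ g C) (c : ℤ × ℤ) (n : ℕ) (T : Finset Λ)
    (hT : ∀ x ∈ T, Box c n (K.pos x)) : T.card ≤ (2 * n) ^ 2 := by
  have : T.card ≤ (Finset.Ico (c.1 - n) (c.1 + n) ×ˢ Finset.Ico (c.2 - n) (c.2 + n)).card := by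
    refine Finset.card_le_card_of_injOn K.pos (fun x hx => ?_) (K.inj.injOn)
    have := hT x hx
    simp only [Finset.coe_product, Finset.coe_Ico, Set.mem_prod, Set.mem_Ico]
    unfold Box at this; omega
  rw [Finset.card_product, Int.card_Ico, Int.card_Ico] at this
  have e1 : (c.1 + n - (c.1 - n)).toNat = 2 * n := by omega
  have e2 : (c.2 + n - (c.2 - n)).toNat = 2 * n := by omega
  rw [e1, e2] at this
  nlinarith

/-- Trivial resolution: put the whole box into the discarded set. -/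
theorem res_base (K : Ctx Λ g C) {lam : ℝ} (hl : 0 ≤ lam) (c : ℤ × ℤ) (n : ℕ) :
    Res K lam (K.A.filter fun x => Box c n (K.pos x)) c n (lam * (2 * n) ^ 2) := by
  refine ⟨Finset.filter_subset _ _, fun x hx hb => Finset.mem_filter.2 ⟨hx, hb⟩,
    fun x hx => ?_, fun σ F _ _ _ => ⟨F, K.A.filter fun x => Box c n (K.pos x), fun _ => le_rfl,
      fun _ => Finset.subset_union_left, Finset.subset_union_right, ?_⟩⟩
  · have := (Finset.mem_filter.1 hx).2
    unfold Box at *; omega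
  · have := card_box K c n _ (fun x hx => (Finset.mem_filter.1 hx).2 :
      ∀ x ∈ K.A.filter fun x => Box c n (K.pos x), Box c n (K.pos x))
    have h2 : (((K.A.filter fun x => Box c n (K.pos x)).card : ℕ) : ℝ) ≤ (2 * n) ^ 2 := by
      exact_mod_cast this
    nlinarith [mul_le_mul_of_nonneg_left h2 hl]

/-- The four children of a vertex. -/
def kid (c : ℤ × ℤ) (ρ : ℤ) (i : Bool × Bool) : ℤ × ℤ :=
  if i.1 then (if i.2 then (c.1 + ρ, c.2) else (c.1 - ρ, c.2))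
  else (if i.2 then (c.1, c.2 + ρ) else (c.1, c.2 - ρ))

theorem kid_near (σ b : Bool) (c x y : ℤ × ℤ) (ρ r : ℤ) (hr : 8 * r ≤ ρ) (h0 : 0 < r)
    (hx : Box c ρ x) (hy : ¬ Box c ρ y) (hxy : Near r x y) (h1 : chk σ c x = !b)
    (h2 : chk σ c y = b) : ∃ i, Box (kid c ρ i) r x := by
  have hne : chk σ c x ≠ chk σ c y := by rw [h1, h2]; cases b <;> simp
  have key : ¬ ((c.1 ≤ x.1 ↔ c.1 ≤ y.1) ∧ (c.2 ≤ x.2 ↔ c.2 ≤ y.2)) := by
    rintro ⟨a1, a2⟩
    apply hne
    unfold chk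
    simp only [a1, a2]
  unfold Box Near at *
  by_cases a1 : c.1 + ρ ≤ y.1
  · exact ⟨(true, true), by simp only [kid, if_true]; omega⟩
  by_cases a2 : y.1 < c.1 - ρ
  · exact ⟨(true, false), by simp only [kid, if_true, Bool.false_eq_true, if_false]; omega⟩
  by_cases a3 : c.2 + ρ ≤ y.2
  · exact ⟨(false, true), by simp only [kid, if_true, Bool.false_eq_true, if_false]; omega⟩
  · exact ⟨(false, false), by simp only [kid, Bool.false_eq_true, if_false]; omega⟩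

theorem kid_chk_out (σ : Bool) (c x : ℤ × ℤ) (ρ r : ℤ) (hr : 8 * r ≤ ρ) (h0 : 0 < r)
    (i : Bool × Bool) (hx : Box (kid c ρ i) (4 * r) x) (hy : ¬ Box c ρ x) :
    chk σ (kid c ρ i) x = chk σ c x := by
  obtain ⟨i, j⟩ := i
  unfold Box at *
  cases i <;> cases j <;>
    simp only [kid, if_true, Bool.false_eq_true, if_false] at hx ⊢ <;> unfold chk <;>
    simp only <;> congr 2 <;> simp only [decide_eq_decide] <;> omega

theorem kid_chk_in (σ : Bool) (c x : ℤ × ℤ) (ρ r : ℤ) (hr : 8 * r ≤ ρ) (h0 : 0 < r)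
    (i : Bool × Bool) (hx : Box (kid c ρ i) (4 * r) x) (hy : Box c ρ x) :
    chk σ (kid c ρ i) x = !chk σ c x := by
  obtain ⟨i, j⟩ := i
  unfold Box at *
  cases i <;> cases j <;>
    simp only [kid, if_true, Bool.false_eq_true, if_false] at hx ⊢ <;> unfold chk <;>
    simp only
  · have a1 : c.2 - ρ ≤ x.2 := by omega
    have a2 : ¬ c.2 ≤ x.2 := by omega
    simp [a1, a2]
  · have a1 : ¬ c.2 + ρ ≤ x.2 := by omega
    have a2 : c.2 ≤ x.2 := by omega
    simp [a1, a2]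
  · have a1 : c.1 - ρ ≤ x.1 := by omega
    have a2 : ¬ c.1 ≤ x.1 := by omega
    simp [a1, a2]
  · have a1 : ¬ c.1 + ρ ≤ x.1 := by omega
    have a2 : c.1 ≤ x.1 := by omega
    simp [a1, a2]

theorem kid_box (c z : ℤ × ℤ) (ρ r : ℤ) (i : Bool × Bool) (hx : Box (kid c ρ i) r z)
    (h0 : 0 ≤ ρ) : Box c (ρ + r) z := by
  obtain ⟨i, j⟩ := i
  unfold Box at *
  cases i <;> cases j <;> simp only [kid, if_true, Bool.false_eq_true, if_false] at hx <;> omega

theorem kid_sep (c z : ℤ × ℤ) (ρ r : ℤ) (hr : 8 * r ≤ ρ) (i j : Bool × Bool) (hij : i ≠ j)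
    (hx : Box (kid c ρ i) (2 * r) z) : ¬ Box (kid c ρ j) (4 * r) z := by
  obtain ⟨i, i'⟩ := i
  obtain ⟨j, j'⟩ := j
  unfold Box at *
  cases i <;> cases j <;> cases i' <;> cases j' <;>
    simp only [kid, if_true, Bool.false_eq_true, if_false] at hx ⊢ <;>
    first | omega | exact absurd rfl hij

/-- One step of the vertex recursion. -/
theorem res_step (K : Ctx Λ g C) (hC : 0 ≤ C) {lam : ℝ} (hl : 0 ≤ lam) (c : ℤ × ℤ) (e e' : ℕ)
    (he : e' + 4 ≤ e) (hg : (2 * e - e' + 8) - (2 * e - e' + 8) / g ≤ e') (V : ℝ)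
    (hΓ : ∀ γ ∈ K.Γ, ¬ Box c (4 * 2 ^ e) γ)
    (ih : ∀ c' : ℤ × ℤ, (∀ γ ∈ K.Γ, ¬ Box c' (4 * 2 ^ (e' + 1)) γ) →
      ∃ U, Res K lam U c' (2 ^ (e' + 1)) V) :
    ∃ U, Res K lam U c (2 ^ e) (2 * C + 4 * V) := by
  classical
  have hp : (8 : ℤ) * 2 ^ (e' + 1) ≤ 2 ^ e := by
    calc (8 : ℤ) * 2 ^ (e' + 1) = 2 ^ (e' + 4) := by ring
      _ ≤ 2 ^ e := pow_le_pow_right₀ (by norm_num) he
  have h0 : (0 : ℤ) < 2 ^ (e' + 1) := by positivity
  have h2 : (2 : ℤ) ^ (e' + 1) = 2 * 2 ^ e' := by ring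
  generalize hρ : (2 : ℤ) ^ e = ρ at *
  generalize hr : (2 : ℤ) ^ (e' + 1) = r at *
  have hk : ∀ i, ∃ U, Res K lam U (kid c ρ i) r V := fun i => ih _ fun γ hγ hb => by
    have := kid_box c γ ρ _ i hb (by omega)
    apply hΓ γ hγ
    unfold Box at *; omega
  choose U hU using hk
  set B := K.A.filter fun x => Box c ρ (K.pos x) with hB
  set W := (Finset.univ : Finset (Bool × Bool)).biUnion U with hW
  refine ⟨B ∪ W, ?_, fun x hx hb => Finset.mem_union_left _ (Finset.mem_filter.2 ⟨hx, hb⟩),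
    fun x hx => ?_, fun σ F hA hD hc => ?_⟩
  · refine Finset.union_subset (Finset.filter_subset _ _) fun x hx => ?_
    obtain ⟨i, -, hi⟩ := Finset.mem_biUnion.1 hx
    exact (hU i).1 hi
  · rcases Finset.mem_union.1 hx with h | h
    · have := (Finset.mem_filter.1 h).2
      unfold Box at *; omega
    · obtain ⟨i, -, hi⟩ := Finset.mem_biUnion.1 h
      have := kid_box c _ ρ _ i ((hU i).2.2.1 x hi) (by omega)
      unfold Box at *; omega
  -- the two inner patches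
  set P : Bool → Finset Λ := fun b => (B \ W).filter fun x => chk σ c (K.pos x) = !b with hP
  have hPB : ∀ b, ∀ x ∈ P b, x ∈ K.A ∧ Box c ρ (K.pos x) ∧ x ∉ W ∧ chk σ c (K.pos x) = !b := by
    intro b x hx
    obtain ⟨a1, a2⟩ := Finset.mem_filter.1 hx
    obtain ⟨a3, a4⟩ := Finset.mem_sdiff.1 a1
    exact ⟨(Finset.mem_filter.1 a3).1, (Finset.mem_filter.1 a3).2, a4, a2⟩
  have hFB : ∀ b, ∀ y ∈ F b, ¬ Box c ρ (K.pos y) := fun b y hy hb =>
    Finset.disjoint_left.1 (hD b) hy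
      (Finset.mem_union_left _ (Finset.mem_filter.2 ⟨hA b hy, hb⟩))
  have hstep : ∀ b, K.φ (F b ∪ P b) ≤ K.φ (F b) + C := by
    intro b
    have := K.step (F b) (P b) c e e' (hA b) (fun x hx => (hPB b x hx).1) (by omega) hg
      (fun x hx => by rw [hρ]; exact (hPB b x hx).2.1)
      (fun x hx y hy hn => by
        rw [← h2] at hn
        obtain ⟨a1, a2, a3, a4⟩ := hPB b x hx
        have hy4 : Box c (4 * ρ) (K.pos y) := by unfold Box Near at *; omega
        obtain ⟨i, hi⟩ := kid_near σ b c _ _ ρ r hp h0 a2 (hFB b y hy) hn a4 (hc b y hy hy4)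
        exact a3 (Finset.mem_biUnion.2 ⟨i, Finset.mem_univ _, (hU i).2.1 x a1 hi⟩))
      (fun x hx γ hγ hn => by
        rw [← h2] at hn
        have a2 := (hPB b x hx).2.1
        apply hΓ γ hγ
        unfold Box Near at *; omega)
    have h3 : C / 2 ^ e ≤ C := div_le_self hC (one_le_pow₀ (by norm_num))
    linarith
  obtain ⟨F', D, k1, k2, k3, k4⟩ := multi K hl Finset.univ U (kid c ρ) (fun _ => r) (fun _ => V)
    (fun _ => σ) (fun _ _ => h0.le) (fun i _ => hU i)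
    (fun i _ j _ hij z hz => kid_sep c z ρ r hp i j hij hz) (fun b => F b ∪ P b)
    (fun b => Finset.union_subset (hA b) fun x hx => (hPB b x hx).1)
    (fun i _ b => Finset.disjoint_left.2 fun x hx hxU => by
      have hxW : x ∈ W := Finset.mem_biUnion.2 ⟨i, Finset.mem_univ _, hxU⟩
      rcases Finset.mem_union.1 hx with h | h
      · exact Finset.disjoint_left.1 (hD b) h (Finset.mem_union_right _ hxW)
      · exact (hPB b x h).2.2.1 hxW)
    (fun i _ b x hx hb => by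
      rcases Finset.mem_union.1 hx with h | h
      · rw [kid_chk_out σ c _ ρ r hp h0 i hb (hFB b x h)]
        apply hc b x h
        have := kid_box c _ ρ _ i hb (by omega)
        unfold Box at *; omega
      · obtain ⟨-, a2, -, a4⟩ := hPB b x h
        rw [kid_chk_in σ c _ ρ r hp h0 i hb a2, a4, Bool.not_not])
  refine ⟨F', D, fun b => Finset.subset_union_left.trans (k1 b), fun b x hx => ?_,
    fun x hx => ?_, ?_⟩
  · rcases Finset.mem_union.1 (k2 b hx) with h | h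
    · rcases Finset.mem_union.1 h with h | h
      · exact Finset.mem_union_left _ h
      · obtain ⟨a1, a2, -, -⟩ := hPB b x h
        exact Finset.mem_union_right _ (Finset.mem_union_left _ (Finset.mem_filter.2 ⟨a1, a2⟩))
    · exact Finset.mem_union_right _ (Finset.mem_union_right _ h)
  · by_cases hxW : x ∈ W
    · exact k3 hxW
    · have hxB : x ∈ B := (Finset.mem_union.1 hx).resolve_right hxW
      have : x ∈ P (!chk σ c (K.pos x)) :=
        Finset.mem_filter.2 ⟨Finset.mem_sdiff.2 ⟨hxB, hxW⟩, by simp⟩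
      have h' := k1 _ (Finset.mem_union_right _ this)
      cases hb : chk σ c (K.pos x) <;> rw [hb] at h' <;> simp only [Finset.mem_union] <;>
        simp only [Bool.not_false, Bool.not_true] at h' <;> tauto
  · have a1 := hstep true
    have a2 := hstep false
    simp only [Finset.sum_const, Finset.card_univ, Fintype.card_prod, Fintype.card_bool,
      nsmul_eq_mul] at k4
    unfold Ctx.Φ at *
    push_cast at k4
    linarith

/-- The vertex lemma: cost `B 2^(e/h)` at radius `2^e`. -/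
theorem res_exists (g h : ℕ) (hg : 1 ≤ g) (hh : 2 ≤ h) {C lam : ℝ} (hC : 0 ≤ C) (hl : 0 ≤ lam) :
    ∃ B : ℝ, 0 ≤ B ∧ ∀ (Λ : Type) [DecidableEq Λ] (K : Ctx Λ g C) (e : ℕ) (c : ℤ × ℤ),
      (∀ γ ∈ K.Γ, ¬ Box c (4 * 2 ^ e) γ) → ∃ U, Res K lam U c (2 ^ e) (B * 2 ^ (e / h)) := by
  set e₀ := g * (6 * h + 12) with he₀
  refine ⟨C + lam * (2 * 2 ^ e₀) ^ 2, by positivity, fun Λ _ K e => ?_⟩
  set B := C + lam * (2 * 2 ^ e₀) ^ 2 with hB
  have hB0 : 0 ≤ lam * (2 * (2 : ℝ) ^ e₀) ^ 2 := by positivity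
  have mono : ∀ {U c ρ a b}, a ≤ b → Res K lam U c ρ a → Res K lam U c ρ b := by
    intro U c ρ a b hab h
    refine ⟨h.1, h.2.1, h.2.2.1, fun σ F h1 h2 h3 => ?_⟩
    obtain ⟨F', D, k1, k2, k3, k4⟩ := h.2.2.2 σ F h1 h2 h3
    exact ⟨F', D, k1, k2, k3, by linarith⟩
  induction e using Nat.strong_induction_on with
  | _ e ih =>
    intro c hΓ
    by_cases hle : e ≤ e₀
    · have := res_base K hl c (2 ^ e)
      push_cast at this
      refine ⟨_, mono ?_ this⟩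
      have a1 : (2 : ℝ) ^ e ≤ 2 ^ e₀ := pow_le_pow_right₀ (by norm_num) hle
      have a2 : (1 : ℝ) ≤ 2 ^ (e / h) := one_le_pow₀ (by norm_num)
      have a3 : lam * (2 * (2 : ℝ) ^ e) ^ 2 ≤ lam * (2 * 2 ^ e₀) ^ 2 := by gcongr
      nlinarith
    · have hge : 6 * h + 12 ≤ e₀ := Nat.le_mul_of_pos_left _ hg
      obtain ⟨U, hU⟩ := res_step K hC hl c e (e - 3 * h - 1) (by omega) (by
          have : 6 * h + 12 ≤ (2 * e - (e - 3 * h - 1) + 8) / g := by
            rw [Nat.le_div_iff_mul_le hg]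
            nlinarith [show e₀ ≤ 2 * e - (e - 3 * h - 1) + 8 by omega]
          omega) (B * 2 ^ ((e - 3 * h - 1 + 1) / h)) hΓ
        (fun c' hc' => ih _ (by omega) c' hc')
      refine ⟨U, mono ?_ hU⟩
      have a1 : e / h = (e - 3 * h - 1 + 1) / h + 3 := by
        rw [← Nat.add_mul_div_right _ _ (by omega : 0 < h)]
        congr 1; omega
      rw [a1, pow_add]
      have a2 : (1 : ℝ) ≤ 2 ^ ((e - 3 * h - 1 + 1) / h) := one_le_pow₀ (by norm_num)
      have a3 : C ≤ B := by linarith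
      nlinarith

end Crest.Agent.N336.Area
end

-- ▼ part N336/Area/Step

/-!
# Row 336, area law: the step property from thin-buffer decoupling (helper51)
-/

set_option autoImplicit false

namespace Crest.Agent.N336.Area

open Crest.MathPhysics.LatticeSpin

section ent

variable {q : ℕ} {Λ : Type} [Fintype Λ] [DecidableEq Λ] {Ω : Vec Λ q}

theorem MI_comm (A B : Finset Λ) : MI Ω A B = MI Ω B A := by
  unfold MI; rw [Finset.union_comm]; ring

theorem MI_mono_right (hs : ∀ A B : Finset Λ, S Ω (A ∪ B) + S Ω (A ∩ B) ≤ S Ω A + S Ω B)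
    {A B B' : Finset Λ} (hB : B ⊆ B') (hd : Disjoint A B') : MI Ω A B ≤ MI Ω A B' := by
  have := hs (A ∪ B) B'
  have e1 : A ∪ B ∪ B' = A ∪ B' := by
    rw [Finset.union_assoc, Finset.union_eq_right.2 hB]
  have e2 : (A ∪ B) ∩ B' = B := by
    rw [Finset.union_inter_distrib_right, Finset.disjoint_iff_inter_eq_empty.1 hd,
      Finset.inter_eq_left.2 hB, Finset.empty_union]
  rw [e1, e2] at this
  unfold MI; linarith

theorem MI_mono (hs : ∀ A B : Finset Λ, S Ω (A ∪ B) + S Ω (A ∩ B) ≤ S Ω A + S Ω B)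
    {A A' B B' : Finset Λ} (hA : A ⊆ A') (hB : B ⊆ B') (hd : Disjoint A' B') :
    MI Ω A B ≤ MI Ω A' B' := by
  calc MI Ω A B ≤ MI Ω A B' := MI_mono_right hs hB (hd.mono_left hA)
    _ = MI Ω B' A := MI_comm _ _
    _ ≤ MI Ω B' A' := MI_mono_right hs hA hd.symm
    _ = MI Ω A' B' := MI_comm _ _

theorem MI_chain (hs : ∀ A B : Finset Λ, S Ω (A ∪ B) + S Ω (A ∩ B) ≤ S Ω A + S Ω B)
    (h0 : ∀ A : Finset Λ, 0 ≤ S Ω A) (X X' E : Finset Λ) :
    MI Ω (X ∪ X') E ≤ MI Ω X E + MI Ω X' (E ∪ X) := by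
  have := hs X X'
  have := h0 (X ∩ X')
  have e1 : X ∪ X' ∪ E = X' ∪ (E ∪ X) := by
    ext x; simp only [Finset.mem_union]; tauto
  unfold MI
  rw [e1, Finset.union_comm E X]
  linarith

/-- The two-family inequality. -/
theorem two_family (hs : ∀ A B : Finset Λ, S Ω (A ∪ B) + S Ω (A ∩ B) ≤ S Ω A + S Ω B)
    (hc : ∀ A : Finset Λ, S Ω Aᶜ = S Ω A)
    (hb : ∀ A : Finset Λ, 0 ≤ S Ω A ∧ S Ω A ≤ A.card * Real.log q) 
    {A X Y D : Finset Λ} (hX : X ⊆ A) (hY : Y ⊆ A) (hA : A ⊆ X ∪ Y ∪ D) :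
    2 * S Ω A ≤ MI Ω X Aᶜ + MI Ω Y Aᶜ + 2 * Real.log q * D.card := by
  set Y' := Y \ X
  set D' := A \ (X ∪ Y)
  have m1 : MI Ω Y' Aᶜ ≤ MI Ω Y Aᶜ :=
    MI_mono hs Finset.sdiff_subset le_rfl (Finset.disjoint_left.2 fun x hx hx' =>
      Finset.mem_compl.1 hx' (hY hx))
  have e1 : X ∪ Aᶜ = (Y' ∪ D')ᶜ := by
    ext x
    have := @hX x
    have := @hY x
    simp only [Y', D', Finset.mem_union, Finset.mem_compl, Finset.mem_sdiff]; tauto
  have e2 : Y' ∪ Aᶜ = (X ∪ D')ᶜ := by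
    ext x
    have := @hX x
    have := @hY x
    simp only [Y', D', Finset.mem_union, Finset.mem_compl, Finset.mem_sdiff]; tauto
  have s1 := hs Y' D'
  have s2 := hs X D'
  have s3 := (hb (Y' ∩ D')).1
  have s4 := (hb (X ∩ D')).1
  have s5 := (hb D').2
  have s6 : (D'.card : ℝ) ≤ D.card := by
    have : D' ⊆ D := fun x hx => by
      have h1 := Finset.mem_sdiff.1 hx
      exact (Finset.mem_union.1 (hA h1.1)).resolve_left h1.2
    exact_mod_cast Finset.card_le_card this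
  have hl : 0 ≤ Real.log q := Real.log_natCast_nonneg q
  have s7 := mul_le_mul_of_nonneg_right s6 hl
  unfold MI at *
  rw [e1, hc, hc]
  rw [e2, hc, hc] at m1
  nlinarith

end ent

/-- Signed sup-distance to the tile `τ` of side `r`. -/
def sd (r : ℤ) (τ z : ℤ × ℤ) : ℤ :=
  max (max (r * τ.1 - z.1) (z.1 - (r * τ.1 + r - 1))) (max (r * τ.2 - z.2) (z.2 - (r * τ.2 + r - 1)))

/-- The dilated tile. -/
noncomputable def tileBox (r : ℤ) (τ : ℤ × ℤ) (k : ℤ) : Finset (ℤ × ℤ) :=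
  Finset.Icc (r * τ.1 - k) (r * τ.1 + r - 1 + k) ×ˢ Finset.Icc (r * τ.2 - k) (r * τ.2 + r - 1 + k)

theorem mem_tileBox (r : ℤ) (τ z : ℤ × ℤ) (k : ℤ) : z ∈ tileBox r τ k ↔ sd r τ z ≤ k := by
  unfold tileBox sd
  simp only [Finset.mem_product, Finset.mem_Icc, max_le_iff]
  omega

theorem card_tileBox (r : ℤ) (τ : ℤ × ℤ) (k : ℤ) (h : 0 ≤ r + 2 * k) :
    ((tileBox r τ k).card : ℤ) = (r + 2 * k) ^ 2 := by
  unfold tileBox
  rw [Finset.card_product, Int.card_Icc, Int.card_Icc]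
  have e1 : r * τ.1 + r - 1 + k + 1 - (r * τ.1 - k) = r + 2 * k := by ring
  have e2 : r * τ.2 + r - 1 + k + 1 - (r * τ.2 - k) = r + 2 * k := by ring
  rw [e1, e2]
  push_cast
  rw [Int.toNat_of_nonneg h]; ring

theorem card_ring (r : ℤ) (τ : ℤ × ℤ) (k : ℤ) (hr : 1 ≤ r) (h0 : 0 ≤ k) (hk : k ≤ r) :
    (((tileBox r τ k).filter fun z => sd r τ z = k).card : ℤ) ≤ 12 * r := by
  by_cases h : 0 ≤ r + 2 * (k - 1)
  · have hsub : tileBox r τ (k - 1) ⊆ tileBox r τ k := fun z hz => by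
      rw [mem_tileBox] at *; omega
    have e : (tileBox r τ k).filter (fun z => sd r τ z = k) = tileBox r τ k \ tileBox r τ (k - 1) := by
      ext z
      simp only [Finset.mem_filter, Finset.mem_sdiff, mem_tileBox]; omega
    rw [e, Finset.card_sdiff_of_subset hsub, Nat.cast_sub (Finset.card_le_card hsub),
      card_tileBox _ _ _ h, card_tileBox _ _ _ (by omega)]
    nlinarith
  · have := card_tileBox r τ k (by omega)
    have h2 : (((tileBox r τ k).filter fun z => sd r τ z = k).card : ℤ) ≤ (tileBox r τ k).card := by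
      exact_mod_cast Finset.card_filter_le _ _
    have e1 : r = 1 := by omega
    have e2 : k = 0 := by omega
    subst e1 e2
    omega

/-- Tile of side `r` containing `z`. -/
def tile (r : ℤ) (z : ℤ × ℤ) : ℤ × ℤ := (z.1 / r, z.2 / r)

theorem tile_spec {r : ℤ} (hr : 0 < r) (z : ℤ × ℤ) :
    r * (tile r z).1 ≤ z.1 ∧ z.1 < r * (tile r z).1 + r ∧
      r * (tile r z).2 ≤ z.2 ∧ z.2 < r * (tile r z).2 + r := by
  have a1 := Int.mul_ediv_add_emod z.1 r
  have a2 := Int.mul_ediv_add_emod z.2 r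
  have a3 := Int.emod_nonneg z.1 hr.ne'
  have a4 := Int.emod_nonneg z.2 hr.ne'
  have a5 := Int.emod_lt_of_pos z.1 hr
  have a6 := Int.emod_lt_of_pos z.2 hr
  simp only [tile]; omega

theorem card_tiles {ι : Type} (X : Finset ι) (p : ι → ℤ × ℤ) (c : ℤ × ℤ) (r : ℤ) (t : ℕ)
    (hr : 0 < r) (hX : ∀ x ∈ X, Box c (t * r) (p x)) :
    (X.image fun x => tile r (p x)).card ≤ (2 * t + 1) ^ 2 := by
  have : (X.image fun x => tile r (p x)) ⊆
      Finset.Icc (c.1 / r - t) (c.1 / r + t) ×ˢ Finset.Icc (c.2 / r - t) (c.2 / r + t) := by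
    intro τ hτ
    obtain ⟨x, hx, rfl⟩ := Finset.mem_image.1 hτ
    obtain ⟨b1, b2, b3, b4⟩ := hX x hx
    have k1 : ∀ a : ℤ, (a - t * r) / r = a / r - t := fun a => by
      rw [show a - t * r = a + (-t) * r by ring, Int.add_mul_ediv_right _ _ hr.ne']; ring
    have k2 : ∀ a : ℤ, (a + t * r) / r = a / r + t := fun a => by
      rw [Int.add_mul_ediv_right _ _ hr.ne']
    simp only [Finset.mem_product, Finset.mem_Icc, tile]
    refine ⟨⟨?_, ?_⟩, ?_, ?_⟩
    · rw [← k1]; exact Int.ediv_le_ediv hr b1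
    · rw [← k2]; exact Int.ediv_le_ediv hr b2.le
    · rw [← k1]; exact Int.ediv_le_ediv hr b3
    · rw [← k2]; exact Int.ediv_le_ediv hr b4.le
  refine (Finset.card_le_card this).trans (le_of_eq ?_)
  rw [Finset.card_product, Int.card_Icc, Int.card_Icc]
  have e1 : (c.1 / r + t + 1 - (c.1 / r - t)).toNat = 2 * t + 1 := by omega
  have e2 : (c.2 / r + t + 1 - (c.2 / r - t)).toNat = 2 * t + 1 := by omega
  rw [e1, e2]; ring

variable {q R : ℕ} {J Δ : ℝ} {Λ : Type} [Fintype Λ] [DecidableEq Λ]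

open Classical in
/-- Positions of the inner endpoints of the cut edges. -/
noncomputable def gam (s : Sys q R J Δ Λ) (A : Finset Λ) : Finset (ℤ × ℤ) :=
  ((A ×ˢ (Finset.univ \ A)).filter fun p => s.G.Adj p.1 p.2).image fun p => s.pos p.1

theorem card_gam (s : Sys q R J Δ Λ) (A : Finset Λ) : (gam s A).card ≤ s.bd A :=
  Finset.card_image_le

theorem mem_gam (s : Sys q R J Δ Λ) (A : Finset Λ) {x y : Λ} (h : s.G.Adj x y) (hx : x ∈ A)
    (hy : y ∉ A) : s.pos x ∈ gam s A := by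
  classical
  unfold gam
  exact Finset.mem_image.2 ⟨(x, y), Finset.mem_filter.2 ⟨by simp [hx, hy], h⟩, rfl⟩

/-- The chart of the tiles of side `2^b` meeting a patch. -/
theorem exists_chart (s : Sys q R J Δ Λ) (A X' : Finset Λ) (hne : X'.Nonempty) (c : ℤ × ℤ)
    (w b : ℕ) (hb : b ≤ w) (hw : ∀ x ∈ X', Box c (2 ^ w) (s.pos x))
    (hΓ : ∀ x ∈ X', ∀ γ ∈ gam s A, ¬ Near (2 * 2 ^ b) (s.pos x) γ) :
    ∃ ch : Chart s (2 ^ (2 * w - b + 8)) (2 ^ b), ch.U = A ∧ (∀ x ∈ X', ch.ψ (s.pos x) ≤ 0) ∧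
      ∀ z, ch.ψ z ≤ (2 ^ b : ℕ) → ∃ x ∈ X', Near (2 * 2 ^ b) (s.pos x) z := by
  classical
  obtain ⟨d, rfl⟩ := Nat.exists_eq_add_of_le hb
  have hn : 2 * (b + d) - b + 8 = b + 2 * d + 8 := by omega
  rw [hn]
  have hr : (0 : ℤ) < 2 ^ b := by positivity
  set T := X'.image fun x => tile (2 ^ b) (s.pos x) with hT
  have hTn : T.Nonempty := hne.image _
  have hcard : T.card ≤ (2 * 2 ^ d + 1) ^ 2 := card_tiles X' s.pos c _ _ hr fun x hx => by
    have := hw x hx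
    rwa [show (2 : ℤ) ^ (b + d) = ((2 ^ d : ℕ) : ℤ) * 2 ^ b by push_cast; ring] at this
  have hcard' : (T.card : ℤ) ≤ 9 * (2 ^ d) ^ 2 := by
    have h1 : (T.card : ℤ) ≤ (2 * 2 ^ d + 1) ^ 2 := by exact_mod_cast hcard
    have h2 : (1 : ℤ) ≤ 2 ^ d := one_le_pow₀ (by norm_num)
    nlinarith
  set ψ : ℤ × ℤ → ℤ := fun z => T.inf' hTn fun τ => sd (2 ^ b) τ z with hψ
  have hatt : ∀ z, ∃ τ ∈ T, ψ z = sd (2 ^ b) τ z := fun z => Finset.exists_mem_eq_inf' hTn _
  have hle : ∀ z, ∀ τ ∈ T, ψ z ≤ sd (2 ^ b) τ z := fun z τ hτ => Finset.inf'_le _ hτ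
  have hnear : ∀ z, ψ z ≤ (2 ^ b : ℕ) → ∃ x ∈ X', Near (2 * 2 ^ b) (s.pos x) z := by
    intro z hz
    obtain ⟨τ, hτ, e⟩ := hatt z
    obtain ⟨x, hx, rfl⟩ := Finset.mem_image.1 hτ
    refine ⟨x, hx, ?_⟩
    have := tile_spec hr (s.pos x)
    rw [e] at hz
    push_cast at hz
    unfold sd at hz
    simp only [max_le_iff] at hz
    unfold Near; omega
  have hbi : ∀ (f : ℤ × ℤ → Finset (ℤ × ℤ)) (M : ℤ), (∀ τ, ((f τ).card : ℤ) ≤ M) →
      ((T.biUnion f).card : ℤ) ≤ 9 * (2 ^ d) ^ 2 * M := by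
    intro f M hM
    have h1 : ((T.biUnion f).card : ℤ) ≤ ∑ τ ∈ T, ((f τ).card : ℤ) := by
      exact_mod_cast Finset.card_biUnion_le
    have h2 : ∑ τ ∈ T, ((f τ).card : ℤ) ≤ T.card • M := Finset.sum_le_card_nsmul _ _ _ fun τ _ => hM τ
    have h3 : 0 ≤ M := le_trans (by positivity) (hM (0, 0))
    rw [nsmul_eq_mul] at h2
    nlinarith
  refine ⟨⟨A, ψ, fun z z' h1 h2 => ?_, fun k h0 hk T' hT' => ?_, fun T' hT' => ?_,
    fun x y hxy hx hy => ?_⟩, rfl, fun x hx => ?_, hnear⟩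
  · obtain ⟨τ, hτ, e⟩ := hatt z'
    have := hle z τ hτ
    rw [e]
    rw [abs_le] at h1 h2
    unfold sd at *
    omega
  · push_cast at hk
    have h1 := hbi (fun τ => (tileBox (2 ^ b) τ k).filter fun z => sd (2 ^ b) τ z = k) _
      fun τ => card_ring _ τ k hr h0 hk
    have h2 : T' ⊆ T.biUnion fun τ => (tileBox (2 ^ b) τ k).filter fun z => sd (2 ^ b) τ z = k := by
      intro z hz
      obtain ⟨τ, hτ, e⟩ := hatt z
      have := hT' z hz
      exact Finset.mem_biUnion.2 ⟨τ, hτ, Finset.mem_filter.2 ⟨(mem_tileBox _ _ _ _).2 (by omega),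
        by omega⟩⟩
    have h3 : (T'.card : ℤ) ≤ 9 * (2 ^ d) ^ 2 * (12 * 2 ^ b) :=
      le_trans (by exact_mod_cast Finset.card_le_card h2) h1
    have h4 : (T'.card : ℤ) ≤ 2 ^ (b + 2 * d + 8) := by
      rw [show (2 : ℤ) ^ (b + 2 * d + 8) = 256 * ((2 ^ d) ^ 2 * 2 ^ b) by ring]
      have : (0 : ℤ) < (2 ^ d) ^ 2 * 2 ^ b := by positivity
      nlinarith
    exact_mod_cast h4
  · have h1 := hbi (fun τ => tileBox (2 ^ b) τ (2 ^ b)) ((3 * 2 ^ b) ^ 2) fun τ => by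
      rw [card_tileBox _ _ _ (by positivity)]; apply le_of_eq; ring
    have h2 : T' ⊆ T.biUnion fun τ => tileBox (2 ^ b) τ (2 ^ b) := by
      intro z hz
      obtain ⟨τ, hτ, e⟩ := hatt z
      have := hT' z hz
      push_cast at this
      exact Finset.mem_biUnion.2 ⟨τ, hτ, (mem_tileBox _ _ _ _).2 (by omega)⟩
    have h3 : (T'.card : ℤ) ≤ 9 * (2 ^ d) ^ 2 * (3 * 2 ^ b) ^ 2 :=
      le_trans (by exact_mod_cast Finset.card_le_card h2) h1
    have h4 : (T'.card : ℤ) ≤ (2 ^ (b + 2 * d + 8)) ^ 2 := by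
      rw [show ((2 : ℤ) ^ (b + 2 * d + 8)) ^ 2 =
        65536 * (2 ^ d) ^ 2 * ((2 ^ d) ^ 2 * (2 ^ b) ^ 2) by ring]
      have h5 : (0 : ℤ) < (2 ^ d) ^ 2 * (2 ^ b) ^ 2 := by positivity
      have h6 : (1 : ℤ) ≤ (2 ^ d) ^ 2 := one_le_pow₀ (one_le_pow₀ (by norm_num))
      nlinarith
    exact_mod_cast h4
  · by_contra hcon
    obtain ⟨x', hx', hn⟩ := hnear _ (not_lt.1 hcon)
    exact hΓ x' hx' _ (mem_gam s A hxy hx hy) hn
  · have := hle (s.pos x) _ (Finset.mem_image_of_mem (fun x => tile (2 ^ b) (s.pos x)) hx)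
    have h2 := tile_spec hr (s.pos x)
    refine this.trans ?_
    unfold sd
    simp only [max_le_iff]; omega

/-- The context given by thin-buffer decoupling. -/
theorem exists_ctx (hE : EntStmt) (hT : TBStmt) (q R : ℕ) (J Δ : ℝ) (hq : 1 ≤ q) (hJ : 0 < J)
    (hΔ : 0 < Δ) : ∃ (g : ℕ) (C : ℝ), 1 ≤ g ∧ 0 ≤ C ∧
      ∀ (Λ : Type) [Fintype Λ] [DecidableEq Λ] (s : Sys q R J Δ Λ) (A : Finset Λ),
        ∃ K : Ctx Λ g C, K.A = A ∧ K.Γ = gam s A ∧ K.φ = fun X => MI s.Ω X Aᶜ := by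
  obtain ⟨γ, C, hγ, -, hC, H⟩ := hT q R J Δ hq hJ hΔ
  obtain ⟨g, hg⟩ := exists_nat_gt (1 / γ)
  have hg0 : (0 : ℝ) < g := lt_trans (by positivity) hg
  have hg1 : 1 ≤ g := by exact_mod_cast hg0
  refine ⟨g, 2 * C, hg1, by positivity, fun Λ _ _ s A => ?_⟩
  obtain ⟨-, hb, hs, -⟩ := hE q Λ s.Ω s.gap.1
  refine ⟨⟨s.pos, s.inj, A, gam s A, fun X => MI s.Ω X Aᶜ, ?_⟩, rfl, rfl, rfl⟩
  intro X X' c w b hX hX' hbw hg' hw hsep hΓ
  rcases X'.eq_empty_or_nonempty with rfl | hne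
  · rw [Finset.union_empty]
    have : 0 ≤ 2 * C / 2 ^ w := by positivity
    linarith
  have hch := exists_chart s A X' hne c w b hbw hw hΓ
  have ha : w ≤ 2 * w - b + 8 := by omega
  generalize 2 * w - b + 8 = a at hch hg' ha
  obtain ⟨ch, hU, h0, hm⟩ := hch
  have h1 := H Λ s _ _ ch Nat.one_le_two_pow (by
    push_cast
    rw [← Real.rpow_natCast, ← Real.rpow_mul (by norm_num), ← Real.rpow_natCast]
    apply Real.rpow_le_rpow_of_exponent_le (by norm_num)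
    have e1 : ((a / g : ℕ) : ℝ) ≤ a / g := Nat.cast_div_le
    have e2 : (a : ℝ) / g ≤ a * γ := by
      rw [div_le_iff₀ hg0, mul_assoc]
      have : 1 ≤ γ * g := by rw [div_lt_iff₀ hγ] at hg; linarith
      nlinarith [(Nat.cast_nonneg a : (0 : ℝ) ≤ a)]
    have e3 : (a : ℝ) ≤ b + (a / g : ℕ) := by exact_mod_cast (by omega : a ≤ b + a / g)
    nlinarith)
  have h2 : MI s.Ω X' (Aᶜ ∪ X) ≤ MI s.Ω (ch.P 0) (ch.P (2 ^ b : ℕ))ᶜ := by
    refine MI_mono hs (fun x hx => Finset.mem_filter.2 ⟨hU ▸ hX' hx, h0 x hx⟩) (fun y hy => ?_) ?_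
    · rw [Finset.mem_compl]
      intro hy'
      obtain ⟨a1, a2⟩ := Finset.mem_filter.1 hy'
      rcases Finset.mem_union.1 hy with h | h
      · exact Finset.mem_compl.1 h (hU ▸ a1)
      · obtain ⟨x, hx, hn⟩ := hm _ a2
        exact hsep x hx y h hn
    · refine Finset.disjoint_left.2 fun x hx hx' => Finset.mem_compl.1 hx' ?_
      obtain ⟨a1, a2⟩ := Finset.mem_filter.1 hx
      exact Finset.mem_filter.2 ⟨a1, a2.trans (by positivity)⟩
  have h3 := MI_chain hs (fun A => (hb A).1) X X' Aᶜ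
  have h4 : Real.exp (-Real.sqrt ((2 ^ a : ℕ) : ℝ)) ≤ 2 / 2 ^ w := by
    have k1 := Real.quadratic_le_exp_of_nonneg (Real.sqrt_nonneg ((2 ^ a : ℕ) : ℝ))
    rw [Real.sq_sqrt (by positivity)] at k1
    have k2 : (2 : ℝ) ^ w ≤ ((2 ^ a : ℕ) : ℝ) := by
      push_cast; exact pow_le_pow_right₀ (by norm_num) (by omega)
    have k3 := Real.sqrt_nonneg ((2 ^ a : ℕ) : ℝ)
    rw [Real.exp_neg, inv_eq_one_div, div_le_div_iff₀ (Real.exp_pos _) (by positivity)]
    linarith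
  have h5 := mul_le_mul_of_nonneg_left h4 hC.le
  have h6 : C * (2 / 2 ^ w) = 2 * C / 2 ^ w := by ring
  show MI s.Ω (X ∪ X') Aᶜ ≤ MI s.Ω X Aᶜ + 2 * C / 2 ^ w
  linarith

end Crest.Agent.N336.Area
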